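import Mathlib
import Vale.Agent.P120.Defs
import Vale.Agent.P120.Assembly

open MeasureTheory

namespace Vale.Agent.Results.P120.DavidSemmes

/-- The David–Semmes problem in every dimension and codimension. -/
theorem result :
    ∀ (n d : ℕ), 1 ≤ n → n < d →
      ∀ (μ : Measure (EuclideanSpace ℝ (Fin d))) [IsLocallyFiniteMeasure μ],
        Vale.Agent.P120.IsADRegular n μ → Vale.Agent.P120.RieszBounded n μ →
          Vale.Agent.P120.IsUniformlyRectifiable n μ :=
  Vale.Agent.P120.mainStmt_proof

end Vale.Agent.Results.P120.DavidSemmes
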